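import Vale.Agent.P024.M3T.Spec
import Vale.Agent.P024.M4.Spec

/-!
Literal statements of the blocks for imaginary quadratic fields.
-/

namespace Vale.Agent.P024.IQ

open scoped NumberField
open IsDedekindDomain NumberField Vale.Agent.P024 Vale.Agent.P024.M3 Vale.Agent.P024.M3T

/-- The elements of `RR L p` which are `≡ 1 mod p^k` at the primes above `p` outside `S`. -/
def VX (L : Type*) [Field L] [NumberField L] (p k : ℕ) (S : Set (HeightOneSpectrum (𝓞 L))) :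
    Subgroup Lˣ where
  carrier := {x | ∀ w : HeightOneSpectrum (𝓞 L), (p : 𝓞 L) ∈ w.asIdeal →
    w.valuation L (x : L) = 1 ∧
      (w ∉ S → w.valuation L ((x : L) - 1) ≤ w.valuation L ((p : L) ^ k))}
  one_mem' := by intro w _; simp
  mul_mem' := by
    intro x y hx hy w hw
    refine ⟨by simp [(hx w hw).1, (hy w hw).1], fun hS => ?_⟩
    have h : ((x * y : Lˣ) : L) - 1 = (x : L) * ((y : L) - 1) + ((x : L) - 1) := by
      push_cast; ring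
    rw [h]
    refine le_trans (Valuation.map_add _ _ _) (max_le ?_ ((hx w hw).2 hS))
    rw [map_mul, (hx w hw).1, one_mul]
    exact (hy w hw).2 hS
  inv_mem' := by
    intro x hx w hw
    refine ⟨by simp [(hx w hw).1], fun hS => ?_⟩
    have h : ((x⁻¹ : Lˣ) : L) - 1 = -((x : L)⁻¹ * ((x : L) - 1)) := by
      push_cast
      rw [mul_sub, inv_mul_cancel₀ x.ne_zero]; ring
    rw [h, Valuation.map_neg, map_mul, map_inv₀, (hx w hw).1, inv_one, one_mul]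
    exact (hx w hw).2 hS

/-- The `T`-units have bounded index modulo all powers of `p` at the primes outside `S`. -/
def ClosTS (F : Type*) [Field F] [NumberField F] (p : ℕ) (T S : Set (HeightOneSpectrum (𝓞 F))) :
    Prop :=
  ∃ C : ℕ, ∀ k : ℕ, (UFT T ⊔ VX F p k S).relIndex (RR F p) ≠ 0 ∧
    (UFT T ⊔ VX F p k S).relIndex (RR F p) ≤ C

/-- [IQ2] Local norms at the split primes above `p`. -/
def PropN.{u} : Prop := ∀ (F L : Type u) [Field F] [NumberField F] [Field L] [NumberField L]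
  [Algebra F L] [IsGalois F L] (p : ℕ), p.Prime → ∀ S : Set (HeightOneSpectrum (𝓞 F)),
  (∀ v ∈ S, (p : 𝓞 F) ∈ v.asIdeal) → (∀ v ∈ S, Split L v) → ∀ (k : ℕ) (x : Fˣ), x ∈ VX F p k S →
  ∃ y ∈ RR L p, ∃ z ∈ VS F p k,
    Units.map (algebraMap F L : F →* L) x = nn F L y * Units.map (algebraMap F L : F →* L) z

/-- [IQ3] The index for a quadratic extension of an imaginary quadratic field. -/
def PropClosIQ.{u} : Prop := ∀ (F K : Type u) [Field F] [NumberField F] [Field K] [NumberField K]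
  [Algebra F K] [IsGalois F K], Module.finrank ℚ F = 2 → Module.finrank F K = 2 →
  (∀ w : InfinitePlace F, w.IsComplex) → ∀ p : ℕ, p.Prime → p ≠ 2 →
  ∀ v v' : HeightOneSpectrum (𝓞 F), v ≠ v' → (p : 𝓞 F) ∈ v.asIdeal → (p : 𝓞 F) ∈ v'.asIdeal →
  ∀ Q : HeightOneSpectrum (𝓞 K), (p : 𝓞 K) ∉ Q.asIdeal →
  (∀ w : HeightOneSpectrum (𝓞 K), w.asIdeal.under (𝓞 F) = Q.asIdeal.under (𝓞 F) → w = Q) →
  ClosTS K p {Q} {w | w.asIdeal.under (𝓞 F) = v.asIdeal}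

/-- [IQ4] The imaginary quadratic field `ℚ(√-m)`, `V = Gal(E/ℚ(√-m))`: non-split at `q`,
disjoint from the `l`-power roots of unity, not fixed by `U`. -/
def PropK.{u} : Prop := ∀ (E : Type u) [Field E] [CharZero E] [IsGalois ℚ E], SolvablyClosed E →
  ∀ U : Subgroup (E ≃ₐ[ℚ] E), IsOpen (U : Set (E ≃ₐ[ℚ] E)) → ∀ l q : ℕ, l.Prime → q.Prime →
  l ≠ 2 → l ≠ q → ∃ V : Subgroup (E ≃ₐ[ℚ] E), V.Normal ∧ IsOpen (V : Set (E ≃ₐ[ℚ] E)) ∧
    V.index = 2 ∧ (∃ g ∈ U, g ∉ V) ∧ (∀ c, M4.IsCC c → c ∉ V) ∧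
    (∀ O : ValuationSubring E, O ≠ ⊤ → (q : E) ∈ O.nonunits → ∃ z, Stab O z ∧ z ∉ V) ∧
    ∀ (n : ℕ) (ζ : E), IsPrimitiveRoot ζ (l ^ n) → ∀ b : ℕ, b.Coprime l →
      ∃ σ ∈ V, σ ζ = ζ ^ b

/-- [IQ5] The anticyclotomic characters. -/
def PropT3q.{u} : Prop := ∀ (E : Type u) [Field E] [CharZero E] [IsGalois ℚ E],
  SolvablyClosed E → ∀ V : Subgroup (E ≃ₐ[ℚ] E), V.Normal → IsOpen (V : Set (E ≃ₐ[ℚ] E)) →
  V.index = 2 → (∃ c, M4.IsCC c ∧ c ∉ V) → ∀ (p : ℕ) [Fact p.Prime], p ≠ 2 →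
  (∀ (n : ℕ) (ζ : E), IsPrimitiveRoot ζ (p ^ n) → ∀ b : ℕ, b.Coprime p → ∃ σ ∈ V, σ ζ = ζ ^ b) →
  ∃ θ : V →* ℤ_[p]ˣ, Continuous θ ∧ (∀ g : E ≃ₐ[ℚ] E, g ∉ V → ∀ y y' : V,
    (y' : E ≃ₐ[ℚ] E) = g⁻¹ * (y : E ≃ₐ[ℚ] E) * g → θ y' = (θ y)⁻¹) ∧
    ¬ ∃ m : ℕ, 0 < m ∧ ∀ y, θ y ^ m = 1

/-- [IQ7] A prime which does not split in a quadratic extension. -/
def PropQ.{u} : Prop := ∀ (F K : Type u) [Field F] [NumberField F] [Field K] [NumberField K]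
  [Algebra F K] [IsGalois F K], Module.finrank F K = 2 → ∀ p : ℕ, p.Prime →
  ∃ Q : HeightOneSpectrum (𝓞 K), (p : 𝓞 K) ∉ Q.asIdeal ∧
    ∀ w : HeightOneSpectrum (𝓞 K), w.asIdeal.under (𝓞 F) = Q.asIdeal.under (𝓞 F) → w = Q

end Vale.Agent.P024.IQ
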